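import Vale.Agent.P313.H590.UD.Pot

/-!
Module W: the randomized machine which solves the queries (decoding of the query word, the chain of
repeated trials, assembly).
-/

namespace Vale.Agent.P313.UD.W

open Finset

/-! ### Decoding -/

/-- The code of the symbol at position `p` of the word. -/
def sb (y : List Bool) (p : ℕ) : ℕ := syc (inSym y (p + 1))

/-- The parameter `B` of the word. -/
noncomputable def Bof (y : List Bool) : ℕ := leastBelow (fun p => sb y p ≠ 3) (y.length + 1)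

/-- Row `r` of the word. -/
noncomputable def rowv (y : List Bool) (r : ℕ) : ℕ :=
  ∑ j ∈ range (Bof y), if sb y (Bof y + 1 + r * Bof y + j) = 3 then 1 else 0

theorem rowv_le (y : List Bool) (r : ℕ) : rowv y r ≤ Bof y := by
  unfold rowv
  calc ∑ j ∈ range (Bof y), (if sb y (Bof y + 1 + r * Bof y + j) = 3 then 1 else 0)
      ≤ ∑ j ∈ range (Bof y), 1 := by
        refine sum_le_sum (fun j _ => ?_)
        split_ifs <;> norm_num
    _ = Bof y := by simp

theorem Bof_le (y : List Bool) : Bof y ≤ y.length := by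
  obtain ⟨h1, h2, h3⟩ := leastBelow_spec (fun p => sb y p ≠ 3) (y.length + 1)
  by_contra h
  have h4 : Bof y = y.length + 1 := by unfold Bof at *; omega
  have h5 := h2 y.length (by unfold Bof at h4; omega)
  apply h5
  unfold sb
  have h6 : isR (inSym y (y.length + 1)) = true := by rw [isR_inSym]; simp
  revert h6
  cases inSym y (y.length + 1) <;> simp [isR, syc]

section word

variable {B : ℕ} {val : ℕ → ℕ}

theorem sb_word (hV : WordSpec) (B : ℕ) (val : ℕ → ℕ) (p : ℕ) :
    sb (word B val) p = if p < wlen B then (if wbit B val p = true then 3 else 2) else 1 := by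
  unfold sb
  rw [hV.2.1 B val (p + 1)]
  unfold vsy
  simp

theorem Bof_word (hV : WordSpec) (B : ℕ) (val : ℕ → ℕ) : Bof (word B val) = B := by
  unfold Bof
  have hw : B + 1 ≤ wlen B := by unfold wlen; omega
  refine leastBelow_eq ?_ ?_ ?_
  · rw [hV.1]; omega
  · rw [sb_word hV, if_pos (by omega)]
    have : ¬ wbit B val B = true := by
      unfold wbit
      rw [decide_eq_true_eq]
      omega
    rw [if_neg this]
    norm_num
  · intro j hj
    rw [sb_word hV, if_pos (by omega)]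
    have : wbit B val j = true := by
      unfold wbit
      rw [decide_eq_true_eq]
      exact Or.inl hj
    rw [if_pos this]
    simp

theorem rowv_word (hV : WordSpec) {r : ℕ} (hr : r < 5 + 2 * B) (hv : val r ≤ B) :
    rowv (word B val) r = val r := by
  unfold rowv
  rw [Bof_word hV]
  have h1 : ∀ j ∈ range B, (if sb (word B val) (B + 1 + r * B + j) = 3 then 1 else 0) =
      if j < val r then 1 else 0 := by
    intro j hj
    have hj' := mem_range.1 hj
    have hlt : B + 1 + r * B + j < wlen B := by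
      unfold wlen
      have : (r + 1) * B ≤ (5 + 2 * B) * B := Nat.mul_le_mul_right _ hr
      nlinarith
    rw [sb_word hV, if_pos hlt]
    have e1 : B + 1 + r * B + j - (B + 1) = j + B * r := by
      rw [Nat.mul_comm B r]; omega
    have e2 : wbit B val (B + 1 + r * B + j) = decide (j < val r) := by
      unfold wbit
      rw [e1, Nat.add_mul_mod_self_left, Nat.mod_eq_of_lt hj',
        Nat.add_mul_div_left _ _ (by omega), Nat.div_eq_of_lt hj', Nat.zero_add]
      congr 1
      apply propext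
      constructor
      · rintro (h | h)
        · omega
        · exact h.2
      · intro h
        exact Or.inr ⟨by omega, h⟩
    rw [e2]
    by_cases h : j < val r
    · simp [h]
    · simp [h]
  rw [sum_congr rfl h1, sum_boole]
  have : (range B).filter (fun j => j < val r) = range (val r) := by
    ext j
    simp only [mem_filter, mem_range]
    omega
  rw [this, card_range]
  simp

end word

/-! ### The chain -/

/-- Start vertex. -/
noncomputable def dS (y : List Bool) : ℕ := rowv y 0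
/-- Number of coins of a trial. -/
noncomputable def dT (y : List Bool) : ℕ := rowv y 1
/-- Target. -/
noncomputable def dU (y : List Bool) : ℕ := rowv y 2
/-- Threshold. -/
noncomputable def dk (y : List Bool) : ℕ := rowv y 3
/-- Denominator. -/
noncomputable def dK (y : List Bool) : ℕ := rowv y 4
/-- Successor function. -/
noncomputable def dc (y : List Bool) (v b : ℕ) : ℕ := rowv y (5 + 2 * v + b)
/-- Number of trials. -/
noncomputable def dm (y : List Bool) : ℕ := 3 * dK y ^ 2 + 1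
/-- Radix. -/
def dW (y : List Bool) : ℕ := (y.length + 2) ^ 4

/-- Code of a state. -/
def enc (W v τ i s : ℕ) : ℕ := v + W * (τ + W * (i + W * s))

theorem enc_v {W v : ℕ} (hv : v < W) (τ i s : ℕ) : enc W v τ i s % W = v := by
  unfold enc
  rw [Nat.add_mul_mod_self_left, Nat.mod_eq_of_lt hv]

theorem enc_div {W v : ℕ} (hv : v < W) (τ i s : ℕ) : enc W v τ i s / W = τ + W * (i + W * s) := by
  unfold enc
  rw [Nat.add_mul_div_left _ _ (by omega), Nat.div_eq_of_lt hv, Nat.zero_add]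

theorem enc_t {W v τ : ℕ} (hv : v < W) (ht : τ < W) (i s : ℕ) : enc W v τ i s / W % W = τ := by
  rw [enc_div hv, Nat.add_mul_mod_self_left, Nat.mod_eq_of_lt ht]

theorem enc_div2 {W v τ : ℕ} (hv : v < W) (ht : τ < W) (i s : ℕ) :
    enc W v τ i s / W / W = i + W * s := by
  rw [enc_div hv, Nat.add_mul_div_left _ _ (by omega), Nat.div_eq_of_lt ht, Nat.zero_add]

theorem enc_i {W v τ i : ℕ} (hv : v < W) (ht : τ < W) (hi : i < W) (s : ℕ) :
    enc W v τ i s / W / W % W = i := by
  rw [enc_div2 hv ht, Nat.add_mul_mod_self_left, Nat.mod_eq_of_lt hi]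

theorem enc_s {W v τ i : ℕ} (hv : v < W) (ht : τ < W) (hi : i < W) (s : ℕ) :
    enc W v τ i s / W / W / W = s := by
  rw [enc_div2 hv ht, Nat.add_mul_div_left _ _ (by omega), Nat.div_eq_of_lt hi, Nat.zero_add]

/-- Start of the chain. -/
noncomputable def wini (y : List Bool) : ℕ := enc (dW y) (dS y) 0 0 0

/-- Step of the chain. -/
noncomputable def wnx (y : List Bool) (c b : ℕ) : ℕ :=
  if c / dW y % dW y < dT y then
    enc (dW y) (dc y (c % dW y) b) (c / dW y % dW y + 1) (c / dW y / dW y % dW y)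
      (c / dW y / dW y / dW y)
  else enc (dW y) (dS y) 0 (c / dW y / dW y % dW y + 1)
    (c / dW y / dW y / dW y + if c % dW y = dU y then 1 else 0)

/-- End of the chain. -/
noncomputable def wfi (y : List Bool) (c : ℕ) : ℕ :=
  if c / dW y / dW y % dW y < dm y then 0
  else if (2 * dk y + 1) * dm y ≤ 2 * dK y * (c / dW y / dW y / dW y) then 2 else 1

/-- The reachable codes. -/
def WInv (y : List Bool) (c : ℕ) : Prop :=
  ∃ v τ i s, c = enc (dW y) v τ i s ∧ v ≤ Bof y ∧ τ ≤ dT y ∧ i ≤ dm y ∧ s ≤ i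

/-- Number of coins until the end. -/
noncomputable def wrk (y : List Bool) (c : ℕ) : ℕ :=
  (dm y - c / dW y / dW y % dW y) * (dT y + 1) - c / dW y % dW y

theorem sq_le_pow4 (n : ℕ) : 3 * n ^ 2 + 1 < (n + 2) ^ 4 := by
  have h : (n + 2) ^ 4 = n ^ 4 + 8 * n ^ 3 + 24 * n ^ 2 + 32 * n + 16 := by ring
  rw [h]
  have := Nat.zero_le (n ^ 4)
  have := Nat.zero_le (n ^ 3)
  omega

theorem lt_dW {y : List Bool} {a : ℕ} (h : a ≤ Bof y) : a < dW y := by
  have h1 := Bof_le y
  unfold dW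
  have h2 : y.length + 2 ≤ (y.length + 2) ^ 4 := Nat.le_self_pow (by norm_num) _
  omega

theorem dm_lt (y : List Bool) : dm y < dW y := by
  have h1 : dK y ≤ y.length := (rowv_le y 4).trans (Bof_le y)
  unfold dm dW
  have h2 : dK y ^ 2 ≤ y.length ^ 2 := Nat.pow_le_pow_left h1 2
  have h3 := sq_le_pow4 y.length
  omega

theorem dm_pos (y : List Bool) : 0 < dm y := by unfold dm; omega

theorem winv_le (y : List Bool) (c : ℕ) (h : WInv y c) : c ≤ (y.length + 2) ^ 16 := by
  obtain ⟨v, τ, i, s, rfl, hv, ht, hi, hs⟩ := h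
  have h1 := lt_dW hv
  have h2 := lt_dW (ht.trans (rowv_le y 1))
  have h3 : i < dW y := lt_of_le_of_lt hi (dm_lt y)
  have h4 : s < dW y := lt_of_le_of_lt hs h3
  have e : (y.length + 2) ^ 16 = dW y * (dW y * (dW y * dW y)) := by unfold dW; ring
  rw [e]
  unfold enc
  have a1 : i + dW y * s < dW y * dW y := by nlinarith
  have a2 : τ + dW y * (i + dW y * s) < dW y * (dW y * dW y) := by
    generalize dW y * dW y = Q at *
    generalize i + dW y * s = R at *
    nlinarith
  generalize dW y * (dW y * dW y) = Q at *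
  generalize τ + dW y * (i + dW y * s) = R at *
  nlinarith

theorem winv_ini (y : List Bool) : WInv y (wini y) :=
  ⟨dS y, 0, 0, 0, rfl, rowv_le y 0, Nat.zero_le _, Nat.zero_le _, le_rfl⟩

theorem wrk_ini (y : List Bool) : wrk y (wini y) ≤ (y.length + 2) ^ 16 := by
  unfold wrk
  refine (Nat.sub_le _ _).trans ?_
  have h1 := dm_lt y
  have h2 := lt_dW (rowv_le y 1)
  have h3 : (dm y - wini y / dW y / dW y % dW y) * (dT y + 1) ≤ dW y * dW y :=
    Nat.mul_le_mul ((Nat.sub_le _ _).trans h1.le) h2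
  refine h3.trans ?_
  have e : dW y * dW y = (y.length + 2) ^ 8 := by unfold dW; ring
  rw [e]
  exact Nat.pow_le_pow_right (by omega) (by norm_num)

section step

variable {y : List Bool} {v τ i s : ℕ}

theorem wnx_walk (hv : v ≤ Bof y) (ht : τ < dT y) (hi : i ≤ dm y) (b : ℕ) :
    wnx y (enc (dW y) v τ i s) b = enc (dW y) (dc y v b) (τ + 1) i s := by
  have h1 := lt_dW hv
  have h2 := lt_dW (ht.le.trans (rowv_le y 1))
  have h3 : i < dW y := lt_of_le_of_lt hi (dm_lt y)
  unfold wnx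
  rw [enc_t h1 h2, if_pos ht, enc_v h1, enc_i h1 h2 h3, enc_s h1 h2 h3]

theorem wnx_end (hv : v ≤ Bof y) (ht : τ = dT y) (hi : i ≤ dm y) (b : ℕ) :
    wnx y (enc (dW y) v τ i s) b =
      enc (dW y) (dS y) 0 (i + 1) (s + if v = dU y then 1 else 0) := by
  have h1 := lt_dW hv
  have h2 := lt_dW (ht.le.trans (rowv_le y 1))
  have h3 : i < dW y := lt_of_le_of_lt hi (dm_lt y)
  unfold wnx
  rw [enc_t h1 h2, if_neg (by omega), enc_v h1, enc_i h1 h2 h3, enc_s h1 h2 h3]

theorem wfi_eq (hv : v ≤ Bof y) (ht : τ ≤ dT y) (hi : i ≤ dm y) :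
    wfi y (enc (dW y) v τ i s) = if i < dm y then 0
      else if (2 * dk y + 1) * dm y ≤ 2 * dK y * s then 2 else 1 := by
  have h1 := lt_dW hv
  have h2 := lt_dW (ht.trans (rowv_le y 1))
  have h3 : i < dW y := lt_of_le_of_lt hi (dm_lt y)
  unfold wfi
  rw [enc_i h1 h2 h3, enc_s h1 h2 h3]

theorem wrk_eq (hv : v ≤ Bof y) (ht : τ ≤ dT y) (hi : i ≤ dm y) :
    wrk y (enc (dW y) v τ i s) = (dm y - i) * (dT y + 1) - τ := by
  have h1 := lt_dW hv
  have h2 := lt_dW (ht.trans (rowv_le y 1))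
  have h3 : i < dW y := lt_of_le_of_lt hi (dm_lt y)
  unfold wrk
  rw [enc_i h1 h2 h3, enc_t h1 h2]

end step

theorem wstep (y : List Bool) (c : ℕ) (h : WInv y c) (hf : wfi y c = 0) (b : ℕ) (_hb : b < 2) :
    WInv y (wnx y c b) ∧ wrk y (wnx y c b) < wrk y c := by
  obtain ⟨v, τ, i, s, rfl, hv, ht, hi, hs⟩ := h
  rw [wfi_eq hv ht hi] at hf
  have hi' : i < dm y := by
    by_contra hc
    rw [if_neg hc] at hf
    split_ifs at hf
  rw [wrk_eq hv ht hi]
  have hmul : (dT y + 1) ≤ (dm y - i) * (dT y + 1) := Nat.le_mul_of_pos_left _ (by omega)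
  rcases Nat.lt_or_ge τ (dT y) with h1 | h1
  · have e := wrk_eq (y := y) (v := dc y v b) (τ := τ + 1) (i := i) (s := s) (rowv_le _ _) h1 hi
    rw [wnx_walk hv h1 hi, e]
    refine ⟨⟨_, _, _, _, rfl, rowv_le _ _, h1, hi, hs⟩, ?_⟩
    omega
  · have h2 : τ = dT y := le_antisymm ht h1
    have e := wrk_eq (y := y) (v := dS y) (τ := 0) (i := i + 1)
      (s := s + if v = dU y then 1 else 0) (rowv_le _ _) (Nat.zero_le _) hi'
    rw [wnx_end hv h2 hi, e]
    refine ⟨⟨_, _, _, _, rfl, rowv_le _ _, Nat.zero_le _, hi', ?_⟩, ?_⟩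
    · split_ifs <;> omega
    · have h3 : (dm y - i) * (dT y + 1) = (dm y - (i + 1)) * (dT y + 1) + (dT y + 1) := by
        rw [← Nat.succ_mul]
        congr 1
        omega
      omega

/-! ### Everything is in `LF` -/

variable {k : ℕ}

theorem lf_Bof (hV : WordSpec) : LF (fun x _ => Bof x : Fn k) := by
  have h1 : LFP (fun x b => sb x (b 0) ≠ 3 : List Bool → (Fin (k + 1) → ℕ) → Prop) :=
    (LFP.eq (hV.2.2.2 (k + 1) (fun _ b => b 0 + 1) (LF.proj 0).succ) (LF.const 3)).not
  exact (LF.least h1 (LF.len.succ)).congr (fun x a => by simp only [Fin.cons_zero, Bof])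

theorem lf_rowv (hV : WordSpec) {r : Fn k} (hr : LF r) : LF (fun x a => rowv x (r x a)) := by
  have hB : LF (fun x _ => Bof x : Fn (k + 1)) := lf_Bof hV
  have h1 : LF (fun x b => if sb x (Bof x + 1 + r x (Fin.tail b) * Bof x + b 0) = 3 then 1 else 0 :
      Fn (k + 1)) := by
    refine LF.toInd (LFP.eq ?_ (LF.const 3))
    exact hV.2.2.2 (k + 1) (fun x b => Bof x + 1 + r x (Fin.tail b) * Bof x + b 0 + 1)
      ((((hB.succ).add (hr.weak.mul hB)).add (LF.proj 0)).succ)
  exact (LF.sum h1 (lf_Bof hV)).congr (fun x a => by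
    simp only [Fin.cons_zero, Fin.tail_cons, rowv])

theorem lf_dT (hV : WordSpec) : LF (fun x _ => dT x : Fn k) := lf_rowv hV (LF.const 1)
theorem lf_dS (hV : WordSpec) : LF (fun x _ => dS x : Fn k) := lf_rowv hV (LF.const 0)
theorem lf_dU (hV : WordSpec) : LF (fun x _ => dU x : Fn k) := lf_rowv hV (LF.const 2)
theorem lf_dk (hV : WordSpec) : LF (fun x _ => dk x : Fn k) := lf_rowv hV (LF.const 3)
theorem lf_dK (hV : WordSpec) : LF (fun x _ => dK x : Fn k) := lf_rowv hV (LF.const 4)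
theorem lf_dm (hV : WordSpec) : LF (fun x _ => dm x : Fn k) :=
  ((LF.const 3).mul ((lf_dK hV).powConst 2)).succ
theorem lf_dW : LF (fun x _ => dW x : Fn k) := (LF.len.add (LF.const 2)).powConst 4

theorem lf_enc {W v τ i s : Fn k} (hW : LF W) (hv : LF v) (ht : LF τ) (hi : LF i) (hs : LF s) :
    LF (fun x a => enc (W x a) (v x a) (τ x a) (i x a) (s x a)) :=
  hv.add (hW.mul (ht.add (hW.mul (hi.add (hW.mul hs)))))

theorem lf_wini (hV : WordSpec) : LF (fun x _ => wini x : Fn 0) :=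
  lf_enc lf_dW (lf_dS hV) (LF.const 0) (LF.const 0) (LF.const 0)

theorem lf_wnx (hV : WordSpec) : LF (fun x a => wnx x (a 0) (a 1) : Fn 2) := by
  have hc : LF (fun _ a => a 0 : Fn 2) := LF.proj 0
  have hb : LF (fun _ a => a 1 : Fn 2) := LF.proj 1
  have hW : LF (fun x _ => dW x : Fn 2) := lf_dW
  have h1 := hc.mod hW
  have h2 := (hc.div hW).mod hW
  have h3 := ((hc.div hW).div hW).mod hW
  have h4 := ((hc.div hW).div hW).div hW
  refine LF.ite (LFP.lt h2 (lf_dT hV)) ?_ ?_
  · exact lf_enc hW (lf_rowv hV (((LF.const 5).add ((LF.const 2).mul h1)).add hb)) h2.succ h3 h4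
  · exact lf_enc hW (lf_dS hV) (LF.const 0) h3.succ (h4.add (LF.toInd (LFP.eq h1 (lf_dU hV))))

theorem lf_wfi (hV : WordSpec) : LF (fun x a => wfi x (a 0) : Fn 1) := by
  have hc : LF (fun _ a => a 0 : Fn 1) := LF.proj 0
  have hW : LF (fun x _ => dW x : Fn 1) := lf_dW
  have h3 := ((hc.div hW).div hW).mod hW
  have h4 := ((hc.div hW).div hW).div hW
  refine LF.ite (LFP.lt h3 (lf_dm hV)) (LF.const 0) (LF.ite (LFP.le ?_ ?_) (LF.const 2)
    (LF.const 1))
  · exact (((LF.const 2).mul (lf_dk hV)).succ).mul (lf_dm hV)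
  · exact ((LF.const 2).mul (lf_dK hV)).mul h4

/-! ### The probability -/

section prob

variable {B : ℕ} {cs : ℕ → ℕ → ℕ} {s0 K t u k : ℕ}

/-- The data of a query word. -/
structure QOk (y : List Bool) (B : ℕ) (cs : ℕ → ℕ → ℕ) (s0 K t u k : ℕ) : Prop where
  eB : Bof y = B
  eS : dS y = s0
  eT : dT y = t
  eU : dU y = u
  ek : dk y = k
  eK : dK y = K
  ec : ∀ v < B, ∀ b < 2, dc y v b = cs v b
  ecl : ∀ v < B, ∀ b < 2, cs v b < B
  es : s0 < B

theorem qok (hV : WordSpec) (hcl : ∀ v < B, ∀ b < 2, cs v b < B) (hs : s0 < B) (ht : t ≤ B)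
    (hu : u < B) (hk : k < K) (hK : K ≤ B) : QOk (qw B cs s0 K t u k) B cs s0 K t u k where
  eB := Bof_word hV _ _
  eS := by
    unfold dS qw
    rw [rowv_word hV (by omega) (by simp [rows]; omega)]
    simp [rows]
  eT := by
    unfold dT qw
    rw [rowv_word hV (by omega) (by simp [rows]; omega)]
    simp [rows]
  eU := by
    unfold dU qw
    rw [rowv_word hV (by omega) (by simp [rows]; omega)]
    simp [rows]
  ek := by
    unfold dk qw
    rw [rowv_word hV (by omega) (by simp [rows]; omega)]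
    simp [rows]
  eK := by
    unfold dK qw
    rw [rowv_word hV (by omega) (by simp [rows]; omega)]
    simp [rows]
  ec := by
    intro v hv b hb
    have e : rows cs s0 K t u k (5 + 2 * v + b) = cs v b := by
      unfold rows
      rw [if_neg (by omega), if_neg (by omega), if_neg (by omega), if_neg (by omega),
        if_neg (by omega)]
      congr 1 <;> omega
    unfold dc qw
    rw [rowv_word hV (by omega) (by rw [e]; exact (hcl v hv b hb).le), e]
  ecl := hcl
  es := hs

/-- Codes with vertices of the chain. -/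
def QInv (y : List Bool) (B c : ℕ) : Prop :=
  ∃ v τ i s, c = enc (dW y) v τ i s ∧ v < B ∧ τ ≤ dT y ∧ i ≤ dm y ∧ s ≤ i

/-- The potential of a code. -/
noncomputable def Pot (y : List Bool) (cs : ℕ → ℕ → ℕ) (c : ℕ) : ℚ :=
  psi (hit (toB cs) (dU y) (dT y) (dS y)) (dm y) (c / dW y / dW y % dW y)
    (c / dW y / dW y / dW y) (hit (toB cs) (dU y) (dT y - c / dW y % dW y) (c % dW y)) *
    (2 * (dK y : ℚ) / dm y) ^ 2

variable {y : List Bool}

theorem pot_eq (hQ : QOk y B cs s0 K t u k) {v τ i s : ℕ} (hv : v < B) (ht : τ ≤ dT y)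
    (hi : i ≤ dm y) : Pot y cs (enc (dW y) v τ i s) =
      psi (hit (toB cs) (dU y) (dT y) (dS y)) (dm y) i s (hit (toB cs) (dU y) (dT y - τ) v) *
        (2 * (dK y : ℚ) / dm y) ^ 2 := by
  have h1 := lt_dW (y := y) (a := v) (by rw [hQ.eB]; exact hv.le)
  have h2 := lt_dW (ht.trans (rowv_le y 1))
  have h3 : i < dW y := lt_of_le_of_lt hi (dm_lt y)
  unfold Pot
  rw [enc_i h1 h2 h3, enc_s h1 h2 h3, enc_t h1 h2, enc_v h1]

theorem pot_nonneg (hQ : QOk y B cs s0 K t u k) (c : ℕ) (h : QInv y B c) : 0 ≤ Pot y cs c := by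
  obtain ⟨v, τ, i, s, rfl, hv, ht, hi, hs⟩ := h
  rw [pot_eq hQ hv ht hi]
  exact mul_nonneg (psi_nonneg (hit_nonneg _ _ _) (hit_le_one' _ _ _) s hi (hit_nonneg _ _ _)
    (hit_le_one' _ _ _)) (by positivity)

theorem pot_step (hQ : QOk y B cs s0 K t u k) (c : ℕ) (h : QInv y B c) (hf : wfi y c = 0) :
    (∀ b < 2, QInv y B (wnx y c b) ∧ wrk y (wnx y c b) < wrk y c) ∧
      Pot y cs (wnx y c 0) + Pot y cs (wnx y c 1) ≤ 2 * Pot y cs c := by
  obtain ⟨v, τ, i, s, rfl, hv, ht, hi, hs⟩ := h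
  have hvB : v ≤ Bof y := by rw [hQ.eB]; exact hv.le
  have hW : WInv y (enc (dW y) v τ i s) := ⟨v, τ, i, s, rfl, hvB, ht, hi, hs⟩
  have hr := fun b hb => (wstep y _ hW hf b hb).2
  have hi' : i < dm y := by
    rw [wfi_eq hvB ht hi] at hf
    by_contra hc
    rw [if_neg hc] at hf
    split_ifs at hf
  have hs0 : dS y < B := by rw [hQ.eS]; exact hQ.es
  rcases Nat.lt_or_ge τ (dT y) with h1 | h1
  · have e0 := wnx_walk (s := s) hvB h1 hi 0
    have e1 := wnx_walk (s := s) hvB h1 hi 1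
    rw [hQ.ec v hv 0 (by norm_num)] at e0
    rw [hQ.ec v hv 1 (by norm_num)] at e1
    have c0 := hQ.ecl v hv 0 (by norm_num)
    have c1 := hQ.ecl v hv 1 (by norm_num)
    refine ⟨fun b hb => ⟨?_, hr b hb⟩, ?_⟩
    · rw [wnx_walk hvB h1 hi, hQ.ec v hv b hb]
      exact ⟨_, _, _, _, rfl, hQ.ecl v hv b hb, h1, hi, hs⟩
    · rw [e0, e1, pot_eq hQ c0 h1 hi, pot_eq hQ c1 h1 hi, pot_eq hQ hv ht hi, ← add_mul, psi_avg]
      have e2 : dT y - τ = (dT y - (τ + 1)) + 1 := by omega
      rw [e2]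
      have e3 : hit (toB cs) (dU y) (dT y - (τ + 1) + 1) v =
          (hit (toB cs) (dU y) (dT y - (τ + 1)) (cs v 0) +
            hit (toB cs) (dU y) (dT y - (τ + 1)) (cs v 1)) / 2 := by
        rw [hit]
        rfl
      rw [e3]
      apply le_of_eq
      ring
  · have h2 : τ = dT y := le_antisymm ht h1
    have e0 := wnx_end (s := s) hvB h2 hi 0
    have e1 := wnx_end (s := s) hvB h2 hi 1
    refine ⟨fun b hb => ⟨?_, hr b hb⟩, ?_⟩
    · rw [wnx_end hvB h2 hi]
      exact ⟨_, _, _, _, rfl, hs0, Nat.zero_le _, hi', by split_ifs <;> omega⟩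
    · have e3 : hit (toB cs) (dU y) 0 v = if v = dU y then 1 else 0 := rfl
      have e4 : psi (hit (toB cs) (dU y) (dT y) (dS y)) (dm y) i s (if v = dU y then 1 else 0) =
          phi (hit (toB cs) (dU y) (dT y) (dS y)) (dm y) (i + 1)
            (s + if v = dU y then 1 else 0) := by
        unfold psi
        rw [if_pos hi']
        split_ifs <;> simp
      have e5 := pot_eq (i := i + 1) (s := s + if v = dU y then 1 else 0) hQ hs0
        (Nat.zero_le _) hi'
      rw [e0, e1, e5, pot_eq hQ hv ht hi, h2, Nat.sub_self, Nat.sub_zero, psi_start, e3, e4]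
      apply le_of_eq
      ring

theorem qinv_ini (hQ : QOk y B cs s0 K t u k) : QInv y B (wini y) :=
  ⟨dS y, 0, 0, 0, rfl, by rw [hQ.eS]; exact hQ.es, Nat.zero_le _, Nat.zero_le _, le_rfl⟩

theorem pot_ini (hQ : QOk y B cs s0 K t u k) : Pot y cs (wini y) ≤ 1 / 3 := by
  unfold wini
  rw [pot_eq hQ (by rw [hQ.eS]; exact hQ.es) (Nat.zero_le _) (Nat.zero_le _), Nat.sub_zero,
    psi_start]
  exact phi_init _ rfl

theorem acc_le (hQ : QOk y B cs s0 K t u k) (hk : k < K)
    (hp : hit (toB cs) u t s0 ≤ (k : ℚ) / K) (r : ℕ) :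
    chP (wnx y) (wfi y) r (wini y) ≤ 1 / 3 := by
  refine (chP_le (G := QInv y B) (Ψ := Pot y cs) (pot_nonneg hQ) ?_ ?_ r _ (qinv_ini hQ)).trans
    (pot_ini hQ)
  · intro c hc hf
    obtain ⟨v, τ, i, s, rfl, hv, ht, hi, hs⟩ := hc
    have hvB : v ≤ Bof y := by rw [hQ.eB]; exact hv.le
    rw [wfi_eq hvB ht hi] at hf
    have h1 : ¬ i < dm y := by
      intro hc
      rw [if_pos hc] at hf
      omega
    rw [if_neg h1] at hf
    have h2 : (2 * dk y + 1) * dm y ≤ 2 * dK y * s := by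
      by_contra hc
      rw [if_neg hc] at hf
      omega
    have h3 : i = dm y := by omega
    rw [pot_eq hQ hv ht hi, psi, if_neg h1, h3]
    refine phi_acc (k := dk y) (by rw [hQ.eK]; omega) (dm_pos y) ?_ h2
    rw [hQ.eS, hQ.eT, hQ.eU, hQ.eK, hQ.ek]
    exact hp
  · intro c hc hf
    obtain ⟨h1, h2⟩ := pot_step hQ c hc hf
    exact ⟨fun b hb => (h1 b hb).1, h2⟩

theorem rej_le (hQ : QOk y B cs s0 K t u k) (hk : k < K)
    (hp : ((k : ℚ) + 1) / K ≤ hit (toB cs) u t s0) :
    2 / 3 ≤ chP (wnx y) (wfi y) ((y.length + 2) ^ 16) (wini y) := by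
  have := (one_sub_chP_le (nx := wnx y) (fi := wfi y) (G := QInv y B) (Ψ := Pot y cs)
    (rk := wrk y) (pot_nonneg hQ) ?_ (pot_step hQ) ((y.length + 2) ^ 16) _ (qinv_ini hQ)
    (wrk_ini y)).trans (pot_ini hQ)
  · linarith
  · intro c hc hf0 hf2
    obtain ⟨v, τ, i, s, rfl, hv, ht, hi, hs⟩ := hc
    have hvB : v ≤ Bof y := by rw [hQ.eB]; exact hv.le
    rw [wfi_eq hvB ht hi] at hf0 hf2
    have h1 : ¬ i < dm y := by
      intro hc
      rw [if_pos hc] at hf0
      exact hf0 rfl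
    rw [if_neg h1] at hf2
    have h2 : ¬ (2 * dk y + 1) * dm y ≤ 2 * dK y * s := by
      intro hc
      rw [if_pos hc] at hf2
      exact hf2 rfl
    have h3 : i = dm y := by omega
    rw [pot_eq hQ hv ht hi, psi, if_neg h1, h3]
    refine phi_rej (k := dk y) (by rw [hQ.eK]; omega) (dm_pos y) ?_ h2
    rw [hQ.eS, hQ.eT, hQ.eU, hQ.eK, hQ.ek]
    exact hp

end prob

/-- MODULE W. -/
theorem walkMachine (hB : CoinCompile) (hV : WordSpec) : WalkMachine := by
  obtain ⟨R, c, h1, h2⟩ := hB wini wnx wfi WInv wrk 16 (lf_wini hV) (lf_wnx hV) (lf_wfi hV)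
    winv_le winv_ini wrk_ini wstep
  refine ⟨R, c, h1, fun B cs s0 K t u k hcl hs ht hu hk hK => ?_⟩
  have hQ := qok hV hcl hs ht hu hk hK
  rw [h2]
  exact ⟨fun hp => rej_le hQ hk hp, fun hp => acc_le hQ hk hp _⟩

end Vale.Agent.P313.UD.W
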