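import Vale.Agent.P313.H463.UD.Defs

/-!
Module W, probability part: potentials for chains, and the Chebyshev potential for repeated trials.
-/

namespace Vale.Agent.P313.UD.W

open Finset

/-- A superharmonic function which is at least `1` where the chain accepts bounds the probability
of acceptance. -/
theorem chP_le {nx : ℕ → ℕ → ℕ} {fi : ℕ → ℕ} {G : ℕ → Prop} {Ψ : ℕ → ℚ}
    (h0 : ∀ v, G v → 0 ≤ Ψ v) (h2 : ∀ v, G v → fi v = 2 → 1 ≤ Ψ v)
    (hs : ∀ v, G v → fi v = 0 → (∀ b < 2, G (nx v b)) ∧ Ψ (nx v 0) + Ψ (nx v 1) ≤ 2 * Ψ v) :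
    ∀ r v, G v → chP nx fi r v ≤ Ψ v := by
  intro r
  induction r with
  | zero =>
    intro v hv
    unfold chP
    split_ifs with h
    · exact h2 v hv h
    · exact h0 v hv
  | succ r ih =>
    intro v hv
    unfold chP
    split_ifs with h h'
    · obtain ⟨h3, h4⟩ := hs v hv h
      have h5 := ih _ (h3 0 (by norm_num))
      have h6 := ih _ (h3 1 (by norm_num))
      linarith
    · exact h2 v hv h'
    · exact h0 v hv

/-- A superharmonic function which is at least `1` where the chain rejects bounds the probability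
of not accepting, if there are enough coins. -/
theorem one_sub_chP_le {nx : ℕ → ℕ → ℕ} {fi : ℕ → ℕ} {G : ℕ → Prop} {Ψ : ℕ → ℚ} {rk : ℕ → ℕ}
    (h0 : ∀ v, G v → 0 ≤ Ψ v) (h1 : ∀ v, G v → fi v ≠ 0 → fi v ≠ 2 → 1 ≤ Ψ v)
    (hs : ∀ v, G v → fi v = 0 → (∀ b < 2, G (nx v b) ∧ rk (nx v b) < rk v) ∧
      Ψ (nx v 0) + Ψ (nx v 1) ≤ 2 * Ψ v) :
    ∀ r v, G v → rk v ≤ r → 1 - chP nx fi r v ≤ Ψ v := by
  intro r
  induction r with
  | zero =>
    intro v hv hr
    unfold chP
    split_ifs with h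
    · have := h0 v hv; linarith
    · by_cases h' : fi v = 0
      · have := ((hs v hv h').1 0 (by norm_num)).2
        omega
      · have := h1 v hv h' h; linarith
  | succ r ih =>
    intro v hv hr
    unfold chP
    split_ifs with h h'
    · obtain ⟨h3, h4⟩ := hs v hv h
      have h7 := h3 0 (by norm_num)
      have h8 := h3 1 (by norm_num)
      have h5 := ih _ h7.1 (by omega)
      have h6 := ih _ h8.1 (by omega)
      linarith
    · have := h0 v hv; linarith
    · have := h1 v hv h h'; linarith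

theorem hit_le_one' {cs : ℕ → Bool → ℕ} (w : ℕ) : ∀ j v, hit cs w j v ≤ 1 := by
  intro j
  induction j with
  | zero => intro v; unfold hit; split_ifs <;> norm_num
  | succ j ih =>
    intro v; unfold hit
    have := ih (cs v false)
    have := ih (cs v true)
    linarith

/-- The potential after `i` trials with `s` successes (without the factor `(2 K / m) ^ 2`). -/
def phi (p : ℚ) (m i s : ℕ) : ℚ := ((s : ℚ) - p * i) ^ 2 + (m - i) * (p * (1 - p))

theorem phi_nonneg {p : ℚ} (h0 : 0 ≤ p) (h1 : p ≤ 1) {m i : ℕ} (s : ℕ) (hi : i ≤ m) :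
    0 ≤ phi p m i s := by
  unfold phi
  have h2 : (i : ℚ) ≤ m := by exact_mod_cast hi
  have h3 : 0 ≤ p * (1 - p) := mul_nonneg h0 (by linarith)
  have h4 : 0 ≤ ((m : ℚ) - i) * (p * (1 - p)) := mul_nonneg (by linarith) h3
  positivity

theorem phi_mart (p : ℚ) (m i s : ℕ) :
    p * phi p m (i + 1) (s + 1) + (1 - p) * phi p m (i + 1) s = phi p m i s := by
  unfold phi
  push_cast
  ring

/-- The potential during a trial: `q` is the probability that the current trial is a success. -/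
def psi (p : ℚ) (m i s : ℕ) (q : ℚ) : ℚ :=
  if i < m then q * phi p m (i + 1) (s + 1) + (1 - q) * phi p m (i + 1) s else phi p m i s

theorem psi_nonneg {p : ℚ} (h0 : 0 ≤ p) (h1 : p ≤ 1) {m i : ℕ} (s : ℕ) (hi : i ≤ m) {q : ℚ}
    (hq0 : 0 ≤ q) (hq1 : q ≤ 1) : 0 ≤ psi p m i s q := by
  unfold psi
  split_ifs with h
  · have h3 := phi_nonneg h0 h1 (m := m) (i := i + 1) (s + 1) h
    have h4 := phi_nonneg h0 h1 (m := m) (i := i + 1) s h
    have h5 : 0 ≤ 1 - q := by linarith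
    positivity
  · exact phi_nonneg h0 h1 s hi

theorem psi_start (p : ℚ) {m i : ℕ} (s : ℕ) : psi p m i s p = phi p m i s := by
  unfold psi
  split_ifs with h
  · exact phi_mart p m i s
  · rfl

theorem psi_avg (p : ℚ) (m i s : ℕ) (q r : ℚ) :
    psi p m i s q + psi p m i s r = 2 * psi p m i s ((q + r) / 2) := by
  unfold psi
  split_ifs with h <;> ring

/-- The value of the potential at the start. -/
theorem phi_init (p : ℚ) {K m : ℕ} (hm : m = 3 * K ^ 2 + 1) :
    phi p m 0 0 * (2 * K / m) ^ 2 ≤ 1 / 3 := by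
  unfold phi
  have hm0 : (0 : ℚ) < m := by rw [hm]; positivity
  have hp : p * (1 - p) ≤ 1 / 4 := by nlinarith [sq_nonneg (p - 1 / 2)]
  have e : (((0 : ℕ) : ℚ) - p * (0 : ℕ)) ^ 2 + ((m : ℚ) - (0 : ℕ)) * (p * (1 - p)) =
      m * (p * (1 - p)) := by push_cast; ring
  rw [e]
  have e2 : (m : ℚ) * (p * (1 - p)) * (2 * K / m) ^ 2 = 4 * (p * (1 - p)) * K ^ 2 / m := by
    field_simp
    ring
  rw [e2, div_le_iff₀ hm0]
  have h3 : (m : ℚ) = 3 * K ^ 2 + 1 := by rw [hm]; push_cast; ring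
  rw [h3]
  have h4 : 4 * (p * (1 - p)) * (K : ℚ) ^ 2 ≤ 1 * (K : ℚ) ^ 2 := by
    apply mul_le_mul_of_nonneg_right _ (by positivity)
    linarith
  linarith

/-- At the end: the test accepts although `p ≤ k / K`. -/
theorem phi_acc {p : ℚ} {K k m s : ℕ} (hK : 0 < K) (hm : 0 < m) (hp : p ≤ (k : ℚ) / K)
    (h : (2 * k + 1) * m ≤ 2 * K * s) : 1 ≤ phi p m m s * (2 * K / m) ^ 2 := by
  have hK' : (0 : ℚ) < K := by exact_mod_cast hK
  have hm' : (0 : ℚ) < m := by exact_mod_cast hm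
  have h' : (2 * (k : ℚ) + 1) * m ≤ 2 * K * s := by exact_mod_cast h
  have e : phi p m m s * (2 * K / m) ^ 2 = (((s : ℚ) - p * m) * (2 * K / m)) ^ 2 := by
    unfold phi; ring
  rw [e]
  have h1 : p * K ≤ k := by rwa [le_div_iff₀ hK'] at hp
  have h2 : 1 ≤ ((s : ℚ) - p * m) * (2 * K / m) := by
    rw [show ((s : ℚ) - p * m) * (2 * K / m) = (2 * K * s - 2 * (p * K) * m) / m by
      field_simp, le_div_iff₀ hm']
    nlinarith
  nlinarith

/-- At the end: the test rejects although `(k + 1) / K ≤ p`. -/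
theorem phi_rej {p : ℚ} {K k m s : ℕ} (hK : 0 < K) (hm : 0 < m) (hp : ((k : ℚ) + 1) / K ≤ p)
    (h : ¬ (2 * k + 1) * m ≤ 2 * K * s) : 1 ≤ phi p m m s * (2 * K / m) ^ 2 := by
  have hK' : (0 : ℚ) < K := by exact_mod_cast hK
  have hm' : (0 : ℚ) < m := by exact_mod_cast hm
  have h' : 2 * (K : ℚ) * s ≤ (2 * k + 1) * m := by
    have := (not_le.1 h).le
    exact_mod_cast this
  have e : phi p m m s * (2 * K / m) ^ 2 = ((p * m - (s : ℚ)) * (2 * K / m)) ^ 2 := by
    unfold phi; ring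
  rw [e]
  have h1 : (k : ℚ) + 1 ≤ p * K := by rwa [div_le_iff₀ hK'] at hp
  have h2 : 1 ≤ (p * m - (s : ℚ)) * (2 * K / m) := by
    rw [show (p * m - (s : ℚ)) * (2 * K / m) = (2 * (p * K) * m - 2 * K * s) / m by
      field_simp, le_div_iff₀ hm']
    nlinarith
  nlinarith

end Vale.Agent.P313.UD.W
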